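import Vale.Agent.P011UHR.Loc
import Vale.Agent.P011UHR2.Fld
import Vale.Agent.P011UV4.Red

/-!
The shortening step.
-/

namespace Vale.Agent.P011UHR

theorem red : P011UHB.RED := P011UV4.red_of P011UHR2.cmp P011UHR2.spl case

end Vale.Agent.P011UHR
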