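import Vale.Agent.P011UHR.Rat

/-!
The three parts of the shortening step.
-/

set_option autoImplicit false
set_option linter.all false

namespace Vale.Agent.P011UHR

open Matrix Vale.Agent.P011L Vale.Agent.P183CH Vale.Agent.P011U Vale.Agent.P011UHB
open Vale.Agent.P011UC (pa)

/-- characteristic polynomials of small degree split after `Fr` -/
def Sq {K : Type} [Field K] (l : ℕ) (Fr : K →+* K) : Prop :=
  ∀ n < l, n ≤ 3 → ∀ B : Matrix (Fin n) (Fin n) K, (B.map Fr).charpoly.Splits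

/-- CMP: composite fields -/
def CMP : Prop := ∀ (k K : Type) [Field k] [Field K] [Algebra k K] [IsSepClosure k K] (l : ℕ)
  (L F : IntermediateField k K) (θ : K ≃ₐ[k] K), l.Prime → Module.finrank k L = l → IsGalois k L →
  Fx (F : Set K) θ → ¬Fx (L : Set K) θ → ∃ L' : IntermediateField F K,
    (∀ x, x ∈ L' ↔ x ∈ L ⊔ F) ∧ Module.finrank F L' = l ∧ IsGalois F L'

/-- SPL: the Frobenius twist -/
def SPL : Prop := AllI fun _ K _ _ _ _ T => ∀ l, Per T l ∅ → ∃ (Fr : K →+* K) (q : ℕ),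
  (∀ x, Fr x = x ^ q) ∧ PerQ T ∅ q ∧ Sq l Fr

/-- CASE: the step in the Levi subgroup -/
def CASE : Prop := ∀ (k K : Type) [Field k] [Field K] [Algebra k K] [IsSepClosure k K] (D : Chev)
  (l : ℕ) (L : IntermediateField k K) (θ : K ≃ₐ[k] K) (Fr : K →+* K)
  (π : Equiv.Perm (Fin D.R.r)) (a : D.R.Aut), l = 3 ∨ l = 5 → Module.finrank k L = l →
  IsGalois k L → ¬Fx (L : Set K) θ → (∀ u ∈ L, Fr u ∈ L) → (∀ u, Fr (θ u) = θ (Fr u)) → Sq l Fr →
  Dg D.R π → a ∈ D.R.W → Rd D.R l (a * pa D.R π) →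
  ∃ J : Set (Fin D.R.r), (∀ γ, D.R.In (π '' J) γ → D.R.In J (a γ)) ∧
    ∀ κ κ₂ Φ : D.grp K →* D.grp K, Act L κ θ (a * pa D.R π) → Act L κ₂ θ (a * pa D.R π) →
      Act L Φ Fr 1 → (∀ x, κ₂ (Φ x) = Φ (κ x)) → ∀ z ∈ ZL L D J,
      ∃ (F : IntermediateField k K) (θ' : K ≃ₐ[k] K), Up {p | p < l} ⊥ F ∧ Fx (F : Set K) θ' ∧
        Fx (L : Set K) (θ⁻¹ * θ') ∧ ∃ h ∈ (GG D K).X {γ | D.R.In J γ},
          h ∈ RL k ((L ⊔ F : IntermediateField k K) : Set K) D ∧ ∃ b ∈ (GG D K).Bo, ∃ n s,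
            (GG D K).Rep n s ∧ D.R.len (s * a) < D.R.len a ∧
            h⁻¹ * Φ z * κ₂ (fs D (θ⁻¹ * θ') h) = b * n

end Vale.Agent.P011UHR
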