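import Vale.Agent.P011UHR.Mon
import Vale.Agent.P011UHR.Case
import Vale.Agent.P011UX2.Slh
import Vale.Agent.P011UBL.Flg

/-!
Frames: homomorphisms from special linear groups.
-/

set_option autoImplicit false
set_option linter.all false

namespace Vale.Agent.P011UHR

open Matrix Vale.Agent.P011L Vale.Agent.P011LT Vale.Agent.P183CH Vale.Agent.P011U
  Vale.Agent.P011UHB

variable {k K : Type} [Field k] [Field K] [Algebra k K] {L F : IntermediateField k K} {S : Set K}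
  {n : ℕ} {D : Chev} {θ σ : K ≃ₐ[k] K}

theorem cg_cg (M M' : GL (Fin n) K) (τ τ' : K →+* K) (m : SA K n) :
    cg M τ (cg M' τ' m) = cg (M * gm τ M') (τ.comp τ') m := Subtype.ext (by
  simp only [cg_val, map_mul, map_inv, gm_gm]
  group)

variable (k S n) in
/-- rational matrices -/
def RM : Subgroup (GL (Fin n) K) where
  carrier := {A | ∀ σ : K ≃ₐ[k] K, Fx S σ → gm (σ : K →+* K) A = A}
  mul_mem' a b σ h := by rw [map_mul, a σ h, b σ h]
  one_mem' σ _ := map_one _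
  inv_mem' a σ h := by rw [map_inv, a σ h]

theorem rm_of {A : GL (Fin n) K} (h : ∀ i j, A.1 i j ∈ S) : A ∈ RM k S n := fun σ e =>
  Units.ext (Matrix.ext fun i j => e _ (h i j))

theorem of_rm [IsGalois k K] {A : GL (Fin n) K} (h : A ∈ RM k L n) (i j : Fin n) : A.1 i j ∈ L :=
  mem_L fun σ e => congrArg (fun B : GL (Fin n) K => B.1 i j) (h σ e)

theorem mono_rm (s : Equiv.Perm (Fin n)) {v : Fin n → Kˣ} (h : ∀ a, (v a : K) ∈ L) :
    mono s v ∈ RM k L n := rm_of fun i j => by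
  rw [mono_val]
  split_ifs
  exacts [h j, L.zero_mem]

variable (L) in
/-- frames -/
structure Fm (ρ : Fin n → Fin n → D.R.Q) (f : SA K n →* D.grp K) : Prop where
  as : As D.R ρ
  x : ∀ a b (h : a ≠ b), ∃ c : Kˣ, (c : K) ∈ L ∧ ∀ u, f (tv h u) = (GG D K).x (ρ a b) (c * u) ∧
    f (tv h.symm u) = (GG D K).x (ρ b a) ((c⁻¹ : Kˣ) * u)
  hd : ∀ a b (h : a ≠ b) t, f (hd h t) ∈ (GG D K).T
  gal : ∀ σ : K ≃ₐ[k] K, Fx (L : Set K) σ → ∀ m, fs D σ (f m) = f (cg 1 σ m)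

theorem exists_fm {ρ : Fin n → Fin n → D.R.Q} (h : As D.R ρ) : ∃ f, Fm L ρ f := by
  obtain ⟨f, e, hf⟩ := P011UX2.slh D K n ρ h
  refine ⟨f, h, fun a b c => ⟨Units.map (Int.castRingHom K).toMonoidHom (e a b), intCast_mem _ _,
    fun u => ⟨hf.x a b c u _ rfl, ?_⟩⟩, fun a b c t => ?_, fun σ _ m => (hf.gal _ m _ ?_).symm⟩
  · rw [← map_inv, Int.units_inv_eq_self, hf.sym]
    exact hf.x b a c.symm u _ rfl
  · obtain ⟨y, -, -, d⟩ := hf.h a b c
    exact d t _ (hd_val c t) ▸ P011UP.co_mem _ _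
  · rw [cg_val, one_mul, inv_one, mul_one]
    rfl

variable {ρ ρ' : Fin n → Fin n → D.R.Q} {f f' f₁ f₁' : SA K n →* D.grp K}

theorem as_neg (h : As D.R ρ) (a b : Fin n) : ρ b a = -ρ a b :=
  eq_neg_of_add_eq_zero_right ((h.add a b a).trans (left_eq_add.1 (h.add a a a).symm))

theorem Fm.tw (h : Fm L ρ f) {C : Fin n → Kˣ} (hC : ∀ a, (C a : K) ∈ L) :
    Fm L ρ (f.comp (cg (mono 1 C) (RingHom.id K))) := by
  refine ⟨h.as, fun a b c => ?_, fun a b c t => ?_, fun σ e m => ?_⟩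
  · obtain ⟨d, d1, d2⟩ := h.x a b c
    refine ⟨d * (C a / C b), by simpa using mul_mem d1 (div_mem (hC a) (hC b)), fun u => ?_⟩
    rw [MonoidHom.comp_apply, MonoidHom.comp_apply, cg_tv, cg_tv, mul_inv, inv_div, Units.val_mul,
      Units.val_mul, mul_assoc, mul_assoc]
    exact ⟨(d2 _).1, (d2 _).2⟩
  · have : cg (mono 1 C) (RingHom.id K) (P011UHR.hd c t) = P011UHR.hd c t := Subtype.ext (by
      rw [cg_val, mul_inv_eq_iff_eq_mul]
      show mono 1 C * mono 1 _ = mono 1 _ * _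
      rw [mono_mul, mono_mul]
      exact congrArg _ (funext fun _ => mul_comm _ _))
    exact (congrArg (f · ∈ (GG D K).T) this).mpr (h.hd a b c t)
  · rw [MonoidHom.comp_apply, MonoidHom.comp_apply, h.gal σ e, cg_cg, cg_cg, mono_rm 1 hC σ e,
      map_one, one_mul, mul_one]
    rfl

theorem Fm.rat (h : Fm L ρ f) {m : SA K n}
    (hm : m.1 ∈ RM k ((L ⊔ F : IntermediateField k K) : Set K) n) :
    f m ∈ RL k ((L ⊔ F : IntermediateField k K) : Set K) D := fun σ e => by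
  rw [h.gal σ fun x hx => e x (le_sup_left (a := L) hx)]
  exact congrArg f (Subtype.ext (by rw [cg_val, hm σ e]; group))

theorem Fm.om (h : Fm L ρ f) {a b : Fin n} (c : a ≠ b) {i : Fin D.R.r} (e : ρ a b = D.R.α i) :
    (GG D K).Rep (f (om c)) (D.R.sE i) := by
  obtain ⟨d, -, d2⟩ := h.x a b c
  rw [P011UHR.om, map_mul, map_mul, (d2 _).1, (d2 _).2, as_neg h.as a b, e, mul_one, mul_neg,
    mul_one, GG_ok.sl]
  exact (RG.rep_n i).T_mul (RG.h_mem _ _)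

theorem Fm.lift (h : Fm L ρ f) {γ : D.R.Q} (e : ∃ a b, a ≠ b ∧ γ = ρ a b) {u : K} (hu : u ∈ L) :
    ∃ Z : SA K n, Z.1 ∈ RM k L n ∧ (GG D K).x γ u = f Z := by
  obtain ⟨a, b, c, rfl⟩ := e
  obtain ⟨d, d1, d2⟩ := h.x a b c
  refine ⟨tv c (u / d), rm_of fun i j => ?_, by rw [(d2 _).1, mul_div_cancel₀ _ d.ne_zero]⟩
  rw [tv_val, Matrix.add_apply, one_apply, single_apply]
  exact add_mem (by split_ifs; exacts [one_mem _, zero_mem _])
    (by split_ifs; exacts [div_mem hu d1, zero_mem _])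

theorem Fm.up (h : Fm L ρ f) (hn : n = 2 ∨ n = 3) (hp : ∀ a b, a < b → 0 ≤ ρ a b) {m : SA K n}
    (hm : Ut m.1) : f m ∈ (GG D K).Bo := by
  have h1 : ∀ (a b : Fin n) (c : a < b) u, tv c.ne u ∈ (GG D K).Bo.comap f := fun a b c u => by
    obtain ⟨d, -, d2⟩ := h.x a b c.ne
    exact RG.U_le_Bo ((d2 u).1 ▸ RG.x_mem (h.as.mem _ _ c.ne) (hp a b c) _)
  have h2 : ∀ (a b : Fin n) (c : a ≠ b) t, P011UHR.hd c t ∈ (GG D K).Bo.comap f := fun a b c t =>
    RG.T_le_Bo (h.hd a b c t)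
  obtain rfl | rfl := hn
  exacts [ut_two _ (h1 0 1 (by decide)) (h2 0 1 _) hm, ut_three _ h1 h2 hm]

theorem Fm.mem {ρ : Fin (n + 1) → Fin (n + 1) → D.R.Q} {f : SA K (n + 1) →* D.grp K}
    (h : Fm L ρ f) (hn : 0 < n) {J : Set (Fin D.R.r)} (hJ : ∀ a b, D.R.In J (ρ a b))
    (m : SA K (n + 1)) : f m ∈ (GG D K).X {γ | D.R.In J γ} :=
  sa_ind hn (((GG D K).X {γ | D.R.In J γ}).comap f) (fun i u => by
    obtain ⟨d, -, d2⟩ := h.x _ _ (cs i)
    rw [Subgroup.mem_comap, Subgroup.mem_comap, (d2 u).1, (d2 u).2]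
    exact ⟨RG.x_mem (h.as.mem _ _ (cs i)) (hJ _ _) _,
      RG.x_mem (h.as.mem _ _ (cs i).symm) (hJ _ _) _⟩) m

/-- `κ` acts through the matrix `M` -/
def Mon (f f' : SA K n →* D.grp K) (κ : D.grp K →* D.grp K) (M : GL (Fin n) K) (τ : K →+* K) :
    Prop := ∀ m, κ (f m) = f' (cg M τ m)

section

variable {ρ ρ' : Fin (n + 1) → Fin (n + 1) → D.R.Q} {f f' f₁ f₁' : SA K (n + 1) →* D.grp K}
  {κ κ₂ Φ : D.grp K →* D.grp K} {τ Fr : K →+* K} {w : D.R.Aut} {s : Equiv.Perm (Fin (n + 1))}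

theorem exists_mon (hn : 0 < n) (h : Fm L ρ f) (h' : Fm L ρ' f') (hτ : ∀ u ∈ L, τ u ∈ L)
    (ha : Act L κ τ w) (hw : ∀ a b, w (ρ a b) = ρ' (s a) (s b)) :
    ∃ v, (∀ a, (v a : K) ∈ L) ∧ Mon f f' κ (mono s v) τ := by
  choose d d1 d2 using fun i : Fin n => ha _ (h.as.mem _ _ (cs i))
  choose c c1 c2 using fun i : Fin n => h.x _ _ (cs i)
  choose c' c1' c2' using fun i : Fin n => h'.x _ _ (s.injective.ne (cs i))
  let e : Fin n → Kˣ := fun i => d i * Units.map τ.toMonoidHom (c i) / c' i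
  let v : Fin (n + 1) → Kˣ := fun a => ∏ i : Fin n, if a ≤ i.castSucc then e i else 1
  have hv : ∀ i : Fin n, v i.castSucc / v i.succ = e i := fun i => by
    rw [← Finset.prod_div_distrib, Finset.prod_eq_single i (fun j _ a => ?_) (by simp),
      if_pos le_rfl, if_neg Fin.castSucc_lt_succ.not_ge, div_one]
    rw [div_eq_one]
    refine if_congr ?_ rfl rfl
    have := Fin.val_ne_of_ne a
    simp only [Fin.le_def, Fin.val_castSucc, Fin.val_succ]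
    omega
  refine ⟨v, fun a => ?_, sa_ext hn (F := κ.comp f) (F' := f'.comp (cg _ τ)) fun i u => ?_⟩
  · rw [Units.coe_prod]
    refine prod_mem fun i _ => ?_
    split_ifs
    · simpa [e] using div_mem (mul_mem (d1 i) (hτ _ (c1 i))) (c1' i)
    · exact one_mem _
  · simp only [MonoidHom.comp_apply, cg_tv]
    rw [(c2 i u).1, (c2 i u).2, (c2' i _).1, (c2' i _).2, (d2 i _).1, as_neg h.as i.castSucc,
      (d2 i _).2, hw, ← as_neg h'.as, ← inv_div (v i.castSucc), hv]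
    constructor <;> congr 1 <;> simp [e] <;> field_simp

theorem exists_tw (hn : 0 < n) (h : Fm L ρ f) (hF : ∀ u ∈ L, Fr u ∈ L) (ha : Act L Φ Fr 1) :
    ∃ f₁, Fm L ρ f₁ ∧ Mon f f₁ Φ 1 Fr := by
  obtain ⟨C, h1, h2⟩ := exists_mon (s := 1) hn h h hF ha fun _ _ => rfl
  exact ⟨_, h.tw h1, fun m => by
    rw [h2, MonoidHom.comp_apply, cg_cg, map_one, mul_one]; rfl⟩

theorem Mon.tw (hn : 0 < n) (h : Fm L ρ f₁) (h' : Fm L ρ' f₁') (hτ : ∀ u ∈ L, τ u ∈ L)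
    (ha : Act L κ₂ τ w) (hw : ∀ a b, w (ρ a b) = ρ' (s a) (s b)) {v : Fin (n + 1) → Kˣ}
    (hm : Mon f f' κ (mono s v) τ) (h1 : Mon f f₁ Φ 1 Fr) (h2 : Mon f' f₁' Φ 1 Fr)
    (hc : ∀ x, κ₂ (Φ x) = Φ (κ x)) : Mon f₁ f₁' κ₂ (gm Fr (mono s v)) τ := by
  obtain ⟨v₂, -, h3⟩ := exists_mon hn h h' hτ ha hw
  have key : ∀ a b (c : a ≠ b) u, κ₂ (f₁ (tv c u)) = f₁' (cg (gm Fr (mono s v)) τ (tv c u)) :=
    fun a b c u => by
    obtain ⟨d, -, d2⟩ := h'.x _ _ (s.injective.ne c)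
    have := hc (f (tv c 1))
    rw [h1, h3, hm, h2, ← mono_one, cg_tv, cg_tv, cg_tv, cg_tv] at this
    have := GG_ok.x_inj (Chev.R_ok D) (h'.as.mem _ _ (s.injective.ne c))
      ((d2 _).1.symm.trans (this.trans (d2 _).1))
    rw [h3, gm_mono, cg_tv, cg_tv]
    congr 3
    simpa using this
  exact sa_ext hn (F := κ₂.comp f₁) (F' := f₁'.comp (cg _ τ)) fun i u => ⟨key _ _ _ u, key _ _ _ u⟩

end

end Vale.Agent.P011UHR
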