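import Vale.Agent.P011UHR.Frm
import Vale.Agent.P011UHR3.Rt

/-!
The step in the Levi subgroup.
-/

set_option autoImplicit false
set_option linter.all false

namespace Vale.Agent.P011UHR

open Matrix Vale.Agent.P011L Vale.Agent.P011LT Vale.Agent.P183CH Vale.Agent.P011U
  Vale.Agent.P011UHB Vale.Agent.P011UHR3
open Vale.Agent.P011UC (pa)

variable {k K : Type} [Field k] [Field K] [Algebra k K] {L F : IntermediateField k K} {S : Set K}
  {n l : ℕ} {D : Chev} {θ θ' : K ≃ₐ[k] K} {Fr : K →+* K} {κ κ₂ Φ : D.grp K →* D.grp K}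
  {w s₀ a₀ : D.R.Aut} {J : Set (Fin D.R.r)} {z : D.grp K}

theorem comp_eq (θ θ' : K ≃ₐ[k] K) :
    (θ : K →+* K).comp ((θ⁻¹ * θ' : K ≃ₐ[k] K) : K →+* K) = θ' :=
  RingHom.ext fun _ => θ.apply_symm_apply _

theorem gm_eq {A : GL (Fin n) K} (hA : A ∈ RM k S n) (h : Fx S (θ⁻¹ * θ')) :
    gm (θ' : K →+* K) A = gm (θ : K →+* K) A := by
  rw [← comp_eq θ θ', ← gm_gm, hA _ h]

theorem rm_map {A : GL (Fin n) K} (hA : A ∈ RM k S n) (h : ∀ σ, Fx S σ → Fx S (θ⁻¹ * σ * θ)) :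
    gm (θ : K →+* K) A ∈ RM k S n := fun σ e =>
  (gm_eq (θ' := σ * θ) hA (mul_assoc θ⁻¹ σ θ ▸ h σ e) :)

theorem rm_le {A : GL (Fin n) K} (hA : A ∈ RM k L n) :
    A ∈ RM k ((L ⊔ F : IntermediateField k K) : Set K) n := fun σ e =>
  hA σ fun x hx => e x (le_sup_left (a := L) hx)

theorem Fm.fin {ρ : Fin n → Fin n → D.R.Q} {f : SA K n →* D.grp K} (h : Fm L ρ f)
    (hn : n = 2 ∨ n = 3) (hp : ∀ a b, a < b → 0 ≤ ρ a b) {E W : SA K n}
    {s s' : Equiv.Perm (Fin n)} {v v' : Fin n → Kˣ} {M : GL (Fin n) K} (hM : M = mono s v)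
    (hE : Ut (E.1 * M)) (hW : W.1 = mono s' v') (e : s' * s = 1) :
    f E * (f W)⁻¹ ∈ (GG D K).Bo := by
  subst hM
  rw [← map_inv, ← map_mul]
  refine h.up hn hp ?_
  rw [show (E * W⁻¹).1 = E.1 * mono s v * (W.1 * mono s v)⁻¹ by simp, hW, mono_mul, e, mono_inv]
  exact hE.mul (ut_mono _)

variable (l L θ Fr) in
/-- the assumptions on the fields -/
structure Fl : Prop where
  pr : l.Prime
  deg : Module.finrank k L = l
  gal : IsGalois k L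
  ne : ¬Fx (L : Set K) θ
  fr : ∀ u ∈ L, Fr u ∈ L
  cm : ∀ u, Fr (θ u) = θ (Fr u)
  sq : Sq l Fr

variable (l L θ J κ₂ z a₀) in
/-- the result -/
def Out : Prop := ∃ (F : IntermediateField k K) (θ' : K ≃ₐ[k] K), Up {p | p < l} ⊥ F ∧
  Fx (F : Set K) θ' ∧ Fx (L : Set K) (θ⁻¹ * θ') ∧ ∃ h ∈ (GG D K).X {γ | D.R.In J γ},
    h ∈ RL k ((L ⊔ F : IntermediateField k K) : Set K) D ∧ ∃ b ∈ (GG D K).Bo, ∃ n s,
      (GG D K).Rep n s ∧ D.R.len (s * a₀) < D.R.len a₀ ∧ h⁻¹ * z * κ₂ (fs D (θ⁻¹ * θ') h) = b * n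

variable [IsSepClosure k K]

theorem fr_rm (hF : ∀ u ∈ L, Fr u ∈ L) {A : GL (Fin n) K} (hA : A ∈ RM k L n) :
    gm Fr A ∈ RM k L n := rm_of fun i j => hF _ (of_rm hA i j)

theorem Fl.th (h : Fl L l θ Fr) : ∀ u ∈ L, (θ : K →+* K) u ∈ L := fun _ =>
  haveI := h.gal
  map_L θ

theorem Fl.flg (h : Fl L l θ Fr) (hn : n < l) (hn3 : n ≤ 3) {A : GL (Fin n) K}
    (hA : A ∈ RM k L n) : ∃ (F : IntermediateField k K) (θ' : K ≃ₐ[k] K) (m : SA K n),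
      Up {p | p < l} ⊥ F ∧ Fx (F : Set K) θ' ∧ Fx (L : Set K) (θ⁻¹ * θ') ∧
      m.1 ∈ RM k ((L ⊔ F : IntermediateField k K) : Set K) n ∧
      Ut (m.1⁻¹ * gm Fr A * gm (θ' : K →+* K) m.1) := by
  obtain ⟨F, θ', m, h1, h2, h3, h4, h5⟩ := P011UBL.flg k K l L θ n (gm Fr A) h.pr h.deg h.gal h.ne
    (of_rm (fr_rm h.fr hA)) hn hn3 (by
      have := h.sq n hn hn3 (nm (θ : K →+* K) A.1 l)
      rwa [P011UBL.nm_map (θ := (θ : K →+* K)) Fr h.cm] at this)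
  exact ⟨F, θ', m, Relation.ReflTransGen.mono
    (fun _ _ ⟨p, a, b⟩ => ⟨p, lt_of_le_of_lt a hn, b⟩) _ _ h1, h2, h3, rm_of h4,
    fun i j a => h5 i j a⟩

theorem core1 (h : Fl L l θ Fr) (hn : n = 1 ∨ n = 2) (hl : n + 1 < l)
    {ρ : Fin (n + 1) → Fin (n + 1) → D.R.Q} (as : As D.R ρ) (hp : ∀ a b, a < b → 0 ≤ ρ a b)
    (hJ : ∀ a b, D.R.In J (ρ a b)) (hi : ∀ γ ∈ D.R.Φ, D.R.In J γ → ∃ a b, a ≠ b ∧ γ = ρ a b)
    {s s' : Equiv.Perm (Fin (n + 1))} (hw : ∀ a b, w (ρ a b) = ρ (s a) (s b)) {W : SA K (n + 1)}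
    {v' : Fin (n + 1) → Kˣ} (hW : W.1 = mono s' v') (e : s' * s = 1)
    (hr : ∀ f, Fm L ρ f → (GG D K).Rep (f W) s₀) (a1 : Act L κ θ w) (a2 : Act L κ₂ θ w)
    (a3 : Act L Φ Fr 1) (hc : ∀ x, κ₂ (Φ x) = Φ (κ x)) (hz : z ∈ ZL L D J)
    (ha : D.R.len (s₀ * a₀) < D.R.len a₀) : Out L l θ κ₂ a₀ J (Φ z) := by
  have h0 : 0 < n := by omega
  obtain ⟨f, hf⟩ := exists_fm (L := L) as
  obtain ⟨f₁, hf₁, m1⟩ := exists_tw h0 hf h.fr a3
  obtain ⟨v, hv, m2⟩ := exists_mon h0 hf hf h.th a1 hw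
  have m3 := m2.tw h0 hf₁ hf₁ h.th a2 hw m1 m1 hc
  obtain ⟨Z, hZ, rfl⟩ : ∃ Z : SA K (n + 1), Z.1 ∈ RM k L _ ∧ z = f Z := by
    induction hz using Submonoid.closure_induction with
    | mem g hg =>
      obtain ⟨γ, a, b, u, c, rfl⟩ := hg
      exact hf.lift (hi γ a b) c
    | one => exact ⟨1, one_mem _, (map_one f).symm⟩
    | mul _ _ _ _ a b =>
      obtain ⟨Z, a, rfl⟩ := a
      obtain ⟨Z', b, rfl⟩ := b
      exact ⟨Z * Z', mul_mem a b, (map_mul f _ _).symm⟩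
  obtain ⟨F, θ', m, h1, h2, h3, h4, h5⟩ := h.flg hl (by omega) (mul_mem hZ (mono_rm s hv))
  refine ⟨F, θ', h1, h2, h3, f₁ m, hf₁.mem h0 hJ m, hf₁.rat h4, _, ?_, _, _, hr _ hf₁, ha,
    (inv_mul_cancel_right _ _).symm⟩
  rw [m1, hf₁.gal _ h3, m3, ← map_inv, ← map_mul, ← map_mul, cg_cg, comp_eq]
  refine hf₁.fin (by omega) hp (gm_mono Fr s v) ?_ hW e
  convert h5 using 1
  simp [cg_val, mul_assoc]

omit [IsSepClosure k K] in
theorem fx_iff [Normal k L] : Fx (L : Set K) θ ↔ AlgEquiv.restrictNormalHom L θ = 1 := by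
  rw [← MonoidHom.mem_ker, IntermediateField.restrictNormalHom_ker,
    IntermediateField.mem_fixingSubgroup_iff]
  rfl

theorem r1_pos (j : Fin D.R.r) (a b : Fin 2) (h : a < b) : 0 ≤ r1 D.R j a b := by
  fin_cases a <;> fin_cases b <;> simp [r1, RS.α_nonneg] at h ⊢

theorem r1_In {j : Fin D.R.r} (h : j ∈ J) (a b : Fin 2) : D.R.In J (r1 D.R j a b) :=
  r1_eq D.R j a b ▸ (RS.In_α h).smul _

theorem r1_sw {i j : Fin D.R.r} (h : w (D.R.α j) = -D.R.α i) (a b : Fin 2) :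
    w (r1 D.R j a b) = r1 D.R i (Equiv.swap (0 : Fin 2) 1 a) (Equiv.swap (0 : Fin 2) 1 b) := by
  fin_cases a <;> fin_cases b <;> simp [r1, h]

theorem core3 (h : Fl L 5 θ Fr) {i j : Fin D.R.r} (ne : i ≠ j) (hA : D.R.A i j = 0)
    (h1 : w (D.R.α i) = D.R.α j) (h2 : w (D.R.α j) = -D.R.α i) (a1 : Act L κ θ w)
    (a2 : Act L κ₂ θ w) (a3 : Act L Φ Fr 1) (hc : ∀ x, κ₂ (Φ x) = Φ (κ x))
    (hz : z ∈ ZL L D {i, j}) (ha : D.R.len (D.R.sE i * a₀) < D.R.len a₀) :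
    Out L 5 θ κ₂ a₀ {i, j} (Φ z) := by
  have hR := Chev.R_ok D
  haveI := h.gal
  have w1 : ∀ a b, w (r1 D.R i a b) = r1 D.R j ((1 : Equiv.Perm (Fin 2)) a)
      ((1 : Equiv.Perm (Fin 2)) b) :=
    fun a b => by rw [r1_eq, map_smul, h1]; exact (r1_eq _ _ _ _).symm
  have cm : ∀ {f f' : SA K 2 →* D.grp K}, Fm L (r1 D.R i) f → Fm L (r1 D.R j) f' → ∀ m m',
      f m * f' m' = f' m' * f m := fun a b m m' => cm3 _ GG_ok hR ne hA _
    (a.mem one_pos (r1_In (Set.mem_singleton _)) m) _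
    (b.mem one_pos (r1_In (Set.mem_singleton _)) m')
  obtain ⟨f, hf⟩ := exists_fm (L := L) (as1 hR i)
  obtain ⟨f', hf'⟩ := exists_fm (L := L) (as1 hR j)
  obtain ⟨g, hg, m1⟩ := exists_tw one_pos hf h.fr a3
  obtain ⟨g', hg', m1'⟩ := exists_tw one_pos hf' h.fr a3
  obtain ⟨v, hv, m2⟩ := exists_mon one_pos hf hf' h.th a1 w1
  obtain ⟨v', hv', m2'⟩ := exists_mon one_pos hf' hf h.th a1 (r1_sw h2)
  have m3 := m2.tw one_pos hg hg' h.th a2 w1 m1 m1' hc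
  have m3' := m2'.tw one_pos hg' hg h.th a2 (r1_sw h2) m1' m1 hc
  obtain ⟨Z, hZ, Z', hZ', rfl⟩ : ∃ Z : SA K 2, Z.1 ∈ RM k L _ ∧ ∃ Z' : SA K 2, Z'.1 ∈ RM k L _ ∧
      z = f Z * f' Z' := by
    induction hz using Submonoid.closure_induction with
    | mem g hg =>
      obtain ⟨γ, a, b, u, c, rfl⟩ := hg
      rcases in3 hR ne hA a b with b | b
      · obtain ⟨Z, d, e⟩ := hf.lift (in1 hR a b) c
        exact ⟨Z, d, 1, one_mem _, by rw [e, map_one, mul_one]⟩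
      · obtain ⟨Z, d, e⟩ := hf'.lift (in1 hR a b) c
        exact ⟨1, one_mem _, Z, d, by rw [e, map_one, one_mul]⟩
    | one => exact ⟨1, one_mem _, 1, one_mem _, by simp⟩
    | mul _ _ _ _ a b =>
      obtain ⟨Z, a, Y, a', rfl⟩ := a
      obtain ⟨Z', b, Y', b', rfl⟩ := b
      exact ⟨Z * Z', mul_mem a b, Y * Y', mul_mem a' b', by
        rw [map_mul, map_mul, mul_assoc, ← mul_assoc (f' Y), ← cm hf hf']; group⟩
  have t5 := fx_iff.1 (fx_card (by decide) h.deg θ)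
  rw [map_pow] at t5
  have hB := mul_mem hZ' (mono_rm 1 hv)
  have H : Fl L 5 (θ * θ) Fr := ⟨h.pr, h.deg, h.gal, fun e => h.ne (fx_iff.2 (by
      have := fx_iff.1 e
      rw [map_mul] at this
      rwa [show ∀ t : L ≃ₐ[k] L, t ^ 5 = t * (t * t) * (t * t) from fun t => by
        simp [pow_succ, mul_assoc], this,
        mul_one, mul_one] at t5)), h.fr,
    fun u => (h.cm _).trans (congrArg θ (h.cm u)), h.sq⟩
  obtain ⟨F, θ₁, m, q1, q2, q3, q4, q5⟩ := H.flg (n := 2) (by decide) (by decide)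
    (mul_mem (mul_mem hZ (mono_rm (Equiv.swap 0 1) hv')) (fr_rm h.th hB))
  have q6 : Fx (L : Set K) (θ⁻¹ * θ₁ ^ 3) := fx_iff.2 (by
    have := fx_iff.1 q3
    rw [map_mul, map_inv, inv_mul_eq_one] at this
    rw [map_mul, map_inv, map_pow, ← this, map_mul, ← t5]
    simp [pow_succ, mul_assoc])
  have q7 := fx_pow q2 3
  have q8 : gm ((θ₁ ^ 3 : K ≃ₐ[k] K) : K →+* K) (gm ((θ₁ ^ 3 : K ≃ₐ[k] K) : K →+* K) m.1) =
      gm (θ₁ : K →+* K) m.1 := (gm_eq (θ' := θ₁ ^ 3 * θ₁ ^ 3) q4 (by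
    rw [show θ₁⁻¹ * (θ₁ ^ 3 * θ₁ ^ 3) = θ₁ ^ 5 by group]
    exact fx_sup (fx_card (by decide) h.deg _) (fx_pow q2 5)) :)
  generalize θ₁ ^ 3 = θ' at q6 q7 q8
  have q9 := rm_map (θ := θ') q4 fun σ e => fx_sup
    (fx_conj (fun _ => map_L θ') fun x hx => e x (le_sup_left (a := L) hx))
    (fx_mul (fx_mul (fx_inv q7) fun x hx => e x (le_sup_right (b := F) hx)) q7)
  have s1 := rm_le (F := F) (fr_rm h.fr (mono_rm 1 hv))
  refine ⟨F, θ', q1, q7, q6, g m * g' (cg 1 Fr Z' * cg (gm Fr (mono 1 v)) θ' m),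
    mul_mem (hg.mem one_pos (r1_In (by simp)) _) (hg'.mem one_pos (r1_In (by simp)) _),
    mul_mem (hg.rat q4) (hg'.rat (mul_mem (mul_mem (mul_mem (one_mem _) (rm_le (fr_rm h.fr hZ')))
      (inv_mem (one_mem _))) (mul_mem (mul_mem s1 q9) (inv_mem s1)))), _, ?_, _, _,
    hg.om (a := 0) (b := 1) (by decide) (by simp [r1]), ha, (inv_mul_cancel_right _ _).symm⟩
  rw [map_mul Φ, m1, m1', map_mul (fs D _), hg.gal _ q6, hg'.gal _ q6, map_mul κ₂, m3, m3', cg_cg,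
    cg_cg, comp_eq, map_one, mul_one, mul_one, show ∀ a b c d e p : D.grp K, (a * b)⁻¹ * (c * d) *
      (e * p) = b⁻¹ * (a⁻¹ * c * (d * e)) * p from fun _ _ _ _ _ _ => by group, ← map_mul g',
    ← map_inv g, ← map_mul g, cm hg hg', inv_mul_cancel_left, ← map_mul g]
  refine hg.fin (Or.inl rfl) (r1_pos i) (M := gm Fr (mono (Equiv.swap 0 1) v') *
    gm (θ' : K →+* K) (gm Fr (mono 1 v))) (by rw [gm_mono, gm_mono, gm_mono, mono_mul]) ?_
    (om_val _) (by decide)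
  have q0 : gm Fr (gm (θ : K →+* K) (Z'.1 * mono 1 v)) =
      gm (θ' : K →+* K) (gm Fr (Z'.1 * mono 1 v)) := by
    rw [gm_eq (fr_rm h.fr hB) q6, gm_gm, gm_gm]
    exact congrArg (gm · _) (RingHom.ext h.cm)
  rw [map_mul, q0, ← q8] at q5
  convert q5 using 1
  simp [cg_val, mul_assoc]

theorem len_lt {R : RS} (hR : R.Ok) {a : R.Aut} (ha : a ∈ R.W) {j : Fin R.r} {γ : R.Q}
    (h : a γ = -R.α j) (hγ : 0 ≤ γ) : R.len (R.sE j * a) < R.len a := by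
  have := hR.len_mul_neg (i := j) (inv_mem ha) (by
    rw [show a⁻¹ (R.α j) = -γ from a.symm_apply_eq.2 (by rw [map_neg, h, neg_neg])]
    exact neg_nonpos.2 hγ)
  rw [hR.len_inv ha, ← hR.len_inv (mul_mem (inv_mem ha) (RS.sE_mem_W j)), _root_.mul_inv_rev, inv_inv,
    hR.sE_inv] at this
  omega

omit [IsSepClosure k K] in
theorem case : CASE := by
  intro k K _ _ _ _ D l L θ Fr π a hl hd hg hne hF hc hs hπ ha hr
  have hR := Chev.R_ok D
  have H : Fl L l θ Fr := ⟨by obtain rfl | rfl := hl <;> norm_num, hd, hg, hne, hF, hc, hs⟩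
  have e : ∀ i, (a * pa D.R π) (D.R.α i) = a (D.R.α (π i)) := fun i => congrArg a (P011UP.pm_α i)
  have two : ∀ {i j}, i ≠ j → D.R.In {i, j} (a (D.R.α (π i))) → D.R.In {i, j} (a (D.R.α (π j))) →
      ∀ γ, D.R.In (π '' {i, j}) γ → D.R.In {i, j} (a γ) := fun ne p q γ b => by
    rw [Set.image_pair] at b
    rw [eq_two (π.injective.ne ne) b, map_add, map_smul, map_smul]
    exact (p.smul _).add (q.smul _)
  obtain ⟨⟨j, h⟩, -⟩ | ⟨rfl, i, j, ne, ⟨hij, hji, h1, h2⟩ | ⟨hA, h1, h2⟩⟩ := hr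
  · refine ⟨{j}, fun γ b => ?_, fun κ κ₂ Φ a1 a2 a3 hc z hz => core1 H (Or.inl rfl) (by omega)
      (as1 hR j) (r1_pos j) (r1_In (Set.mem_singleton _)) (fun _ => in1 hR) (r1_sw h) (om_val (a := 0) (b := 1)
      (by decide)) (by decide) (fun f hf => hf.om _ (by simp [r1])) a1 a2 a3 hc hz
      (len_lt hR ha ((e j).symm.trans h) (RS.α_nonneg _))⟩
    rw [show γ = γ (π j) • D.R.α (π j) from funext fun l => by
      by_cases c : l = π j
      · simp [c, RS.α_self]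
      · simp [RS.α_ne c, b l (by simpa using c)], map_smul, ← e, h]
    exact (RS.In_α (Set.mem_singleton _)).neg.smul _
  · have p : D.R.In {i, j} (D.R.α i) := RS.In_α (by simp)
    have q : D.R.In {i, j} (D.R.α j) := RS.In_α (by simp)
    refine ⟨{i, j}, two ne (by rwa [← e, h1]) (by rw [← e, h2, sub_eq_add_neg]; exact p.neg.add q.neg),
      fun κ κ₂ Φ a1 a2 a3 hc z hz => core1 (s := finRotate 3) (s₀ := D.R.sE j * D.R.sE i) H
      (Or.inr rfl) (by omega) (as2 hR ne hij hji) (fun a b c => ?_)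
      (fun a b => r2_eq D.R i j a b ▸ (p.smul _).add (q.smul _)) (fun _ => in2 hR ne hij hji)
      (fun a b => ?_) (W := om (a := 1) (b := 2) (by decide) * om (a := 0) (b := 1) (by decide))
      (by rw [Subgroup.coe_mul, om_val, om_val, mono_mul]) (by decide)
      (fun f hf => by
        rw [map_mul]
        exact (hf.om _ (by simp [r2])).mul (hf.om _ (by simp [r2])))
      a1 a2 a3 hc hz ?_⟩
    · fin_cases a <;> fin_cases b <;>
        simp [r2, RS.α_nonneg, add_nonneg (RS.α_nonneg i) (RS.α_nonneg j)] at c ⊢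
    · rw [r2_eq, r2_eq, map_add, map_smul, map_smul, h1, h2]
      fin_cases a <;> fin_cases b <;> simp <;> abel
    · rw [e] at h1 h2
      rw [mul_assoc]
      refine (len_lt hR (mul_mem (RS.sE_mem_W i) ha) (γ := D.R.α (π j)) ?_ (RS.α_nonneg _)).trans
        (len_lt hR ha (γ := D.R.α (π i) + D.R.α (π j)) (by rw [map_add, h1, h2]; abel)
          (add_nonneg (RS.α_nonneg _) (RS.α_nonneg _)))
      rw [LinearEquiv.mul_apply, h2, map_sub, map_neg, hR.sE_α, hR.sE_eq, RS.pr_α, hji]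
      simp
  · exact ⟨{i, j}, two ne (by rw [← e, h1]; exact RS.In_α (by simp))
      (by rw [← e, h2]; exact (RS.In_α (by simp)).neg), fun κ κ₂ Φ a1 a2 a3 hc z hz =>
      core3 H ne hA h1 h2 a1 a2 a3 hc hz (len_lt hR ha ((e j).symm.trans h2) (RS.α_nonneg _))⟩

end Vale.Agent.P011UHR
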