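import Vale.Agent.P011UHB.Spec
import Vale.Agent.P011UJ.Rec
import Vale.Agent.P011LT.Basic

/-!
Monomial matrices and semilinear conjugations of the special linear group.
-/

set_option autoImplicit false
set_option linter.all false

namespace Vale.Agent.P011UHR

open Matrix Vale.Agent.P011L Vale.Agent.P011LT Vale.Agent.P183CH Vale.Agent.P011U
  Vale.Agent.P011UHB

section

variable {K : Type} [Field K] {n : ℕ}

/-- transvections -/
def tv {a b : Fin n} (h : a ≠ b) (u : K) : SA K n :=
  ⟨(SpecialLinearGroup.transvection h u).toGL, mem_SA.2 (SpecialLinearGroup.transvection h u).2⟩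

theorem tv_val {a b : Fin n} (h : a ≠ b) (u : K) : (tv h u).1.1 = 1 + single a b u := rfl

theorem eq_tv {a b : Fin n} (h : a ≠ b) {u : K} {m : SA K n} (e : m.1.1 = 1 + single a b u) :
    m = tv h u := Subtype.ext (Units.ext e)

/-- semilinear conjugations -/
def cg (S : GL (Fin n) K) (τ : K →+* K) : SA K n →* SA K n :=
  ((MulAut.conj S).toMonoidHom.comp ((gm τ).comp (SA K n).subtype)).codRestrict _ fun m =>
    mem_SA.2 (by
      show (S.1 * τ.mapMatrix m.1.1 * (S⁻¹).1).det = 1
      rw [det_units_conj, ← RingHom.map_det, mem_SA.1 m.2, map_one])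

theorem cg_val (S : GL (Fin n) K) (τ : K →+* K) (m : SA K n) :
    (cg S τ m).1 = S * gm τ m.1 * S⁻¹ := rfl

theorem gm_gm (τ τ' : K →+* K) (A : GL (Fin n) K) : gm τ (gm τ' A) = gm (τ.comp τ') A := rfl

/-- monomial matrices -/
def mono (s : Equiv.Perm (Fin n)) (v : Fin n → Kˣ) : GL (Fin n) K where
  val := of fun i j => if i = s j then v j else 0
  inv := of fun i j => if j = s i then ((v i)⁻¹ : Kˣ) else 0
  val_inv := by
    ext i j
    rw [mul_apply, Finset.sum_eq_single (s.symm i) (fun x _ a => by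
      simp [show i ≠ s x from fun e => a (by simp [e])]) (by simp)]
    simp [one_apply, eq_comm]
  inv_val := by
    ext i j
    simp [mul_apply, one_apply]
    by_cases h : i = j
    · simp [h]
    · simp [h, Ne.symm h]

theorem mono_val (s : Equiv.Perm (Fin n)) (v : Fin n → Kˣ) (i j : Fin n) :
    (mono s v).1 i j = if i = s j then (v j : K) else 0 := rfl

theorem mono_mul (s s' : Equiv.Perm (Fin n)) (v v' : Fin n → Kˣ) :
    mono s v * mono s' v' = mono (s * s') fun a => v (s' a) * v' a := Units.ext (by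
  ext i j
  simp [mul_apply, mono_val]
  congr)

theorem gm_mono (τ : K →+* K) (s : Equiv.Perm (Fin n)) (v : Fin n → Kˣ) :
    gm τ (mono s v) = mono s fun a => Units.map τ.toMonoidHom (v a) := Units.ext (by
  ext i j
  show τ ((mono s v).1 i j) = _
  simp [mono_val, apply_ite τ])

theorem mono_one : mono (1 : Equiv.Perm (Fin n)) (1 : Fin n → Kˣ) = 1 := Units.ext (by
  ext i j
  simp [mono_val, one_apply]
  congr)

theorem mono_inv (v : Fin n → Kˣ) : (mono 1 v)⁻¹ = mono 1 v⁻¹ :=
  inv_eq_of_mul_eq_one_right ((mono_mul _ _ _ _).trans (by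
    rw [mul_one, ← mono_one]
    congr 1
    funext a
    simp))

theorem cg_tv (s : Equiv.Perm (Fin n)) (v : Fin n → Kˣ) (τ : K →+* K) {a b : Fin n} (h : a ≠ b)
    (u : K) : cg (mono s v) τ (tv h u) = tv (s.injective.ne h) ((v a / v b : Kˣ) * τ u) :=
  Subtype.ext (mul_inv_eq_iff_eq_mul.2 (Units.ext (by
    show (mono s v).1 * (1 + single a b u).map τ = (1 + single _ _ _) * (mono s v).1
    have : (1 + single a b u).map τ = 1 + single a b (τ u) := by
      ext i j
      simp [one_apply, single_apply, apply_ite τ]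
    rw [this, Matrix.mul_add, Matrix.add_mul, Matrix.mul_one, Matrix.one_mul, add_right_inj]
    ext i j
    by_cases e : j = b
    · subst e
      rw [mul_single_apply_same]
      by_cases e' : i = s a
      · subst e'
        rw [single_mul_apply_same]
        simp [mono_val]
        field_simp
      · rw [single_mul_apply_of_ne _ _ _ _ _ e']
        simp [mono_val, e']
    · rw [mul_single_apply_of_ne _ _ _ _ _ e]
      by_cases e' : i = s a
      · subst e'
        rw [single_mul_apply_same]
        simp [mono_val, Ne.symm e]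
      · rw [single_mul_apply_of_ne _ _ _ _ _ e'])))

theorem cs (i : Fin n) : i.castSucc ≠ i.succ := Fin.castSucc_lt_succ.ne

theorem sa_ind (hn : 0 < n) (H : Subgroup (SA K (n + 1)))
    (h : ∀ (i : Fin n) u, tv (cs i) u ∈ H ∧ tv (cs i).symm u ∈ H) (m : SA K (n + 1)) : m ∈ H := by
  have a : ∀ (i j : Fin (n + 1)) (t : K), 1 + t • (single i j (1 : ℤ)).map (Int.cast : ℤ → K) =
      1 + single i j t := fun i j t => by
    ext a b
    simp [single_apply]
  obtain ⟨x, hx, e⟩ := (Subgroup.closure_le (H.map (SA K _).subtype)).2 (by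
    rintro g ⟨i, t, c | c⟩
    · exact ⟨_, (h i t).1, Units.ext (c.trans (a _ _ t)).symm⟩
    · exact ⟨_, (h i t).2, Units.ext (c.trans (a _ _ t)).symm⟩)
    ((P011UJ.genA (K := K) n hn).ge m.2)
  exact (Subtype.ext e : x = m) ▸ hx

theorem sa_ext {G : Type} [Group G] (hn : 0 < n) {F F' : SA K (n + 1) →* G}
    (h : ∀ (i : Fin n) u, F (tv (cs i) u) = F' (tv (cs i) u) ∧
      F (tv (cs i).symm u) = F' (tv (cs i).symm u)) (m : SA K (n + 1)) : F m = F' m :=
  sa_ind hn (F.eqLocus F') h m

/-- upper triangular matrices -/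
def Ut (A : GL (Fin n) K) : Prop := A.1.BlockTriangular id

theorem Ut.mul {A B : GL (Fin n) K} (h : Ut A) (h' : Ut B) : Ut (A * B) :=
  BlockTriangular.mul h h'

theorem ut_mono (v : Fin n → Kˣ) : Ut (mono 1 v) := fun _ _ h => if_neg h.ne'

/-- the coroots -/
def hd {a b : Fin n} (h : a ≠ b) (t : Kˣ) : SA K n :=
  ⟨mono 1 fun i => if i = a then t else if i = b then t⁻¹ else 1, mem_SA.2 (by
    rw [det_of_upperTriangular (ut_mono _)]
    have : ∀ i, (mono 1 fun i => if i = a then t else if i = b then t⁻¹ else 1).1 i i =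
        (if i = a then (t : K) else 1) * if i = b then (t : K)⁻¹ else 1 := fun i => by
      simp only [mono_val, Equiv.Perm.one_apply, if_true]
      split_ifs with c d <;> simp
      exact absurd (c.symm.trans d) h
    simp only [this, Finset.prod_mul_distrib]
    simp)⟩

theorem hd_val {a b : Fin n} (h : a ≠ b) (t : Kˣ) : (hd h t).1.1 =
    diagonal fun i => if i = a then (t : K) else if i = b then ((t⁻¹ : Kˣ) : K) else 1 := by
  ext i j
  simp only [hd, mono_val, diagonal_apply, Equiv.Perm.one_apply]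
  by_cases e : i = j
  · subst e
    simp [apply_ite Units.val]
  · simp [e]

theorem ut_two (H : Subgroup (SA K 2)) (h1 : ∀ u, tv (a := 0) (b := 1) (by decide) u ∈ H)
    (h2 : ∀ t, hd (a := 0) (b := 1) (by decide) t ∈ H) {m : SA K 2} (h : Ut m.1) : m ∈ H := by
  have d := (det_of_upperTriangular h).symm.trans (mem_SA.1 m.2)
  rw [Fin.prod_univ_two] at d
  have a := left_ne_zero_of_mul_eq_one d
  have e := h (i := 1) (j := 0) (by decide)
  convert mul_mem (h2 (Units.mk0 _ a)) (h1 (m.1.1 0 1 / m.1.1 0 0))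
  refine Subtype.ext (Units.ext ?_)
  show _ = (hd _ _).1.1 * (tv _ _).1.1
  rw [hd_val, tv_val]
  ext i j
  fin_cases i <;> fin_cases j <;> simp [one_apply, single_apply, e]
  · field_simp
  · exact eq_inv_of_mul_eq_one_right d

theorem ut_three (H : Subgroup (SA K 3)) (h1 : ∀ (a b : Fin 3) (c : a < b) u, tv c.ne u ∈ H)
    (h2 : ∀ (a b : Fin 3) (c : a ≠ b) t, hd c t ∈ H) {m : SA K 3} (h : Ut m.1) : m ∈ H := by
  have d := (det_of_upperTriangular h).symm.trans (mem_SA.1 m.2)
  rw [Fin.prod_univ_three] at d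
  have c := right_ne_zero_of_mul_eq_one d
  have a := left_ne_zero_of_mul (left_ne_zero_of_mul_eq_one d)
  have b := right_ne_zero_of_mul (left_ne_zero_of_mul_eq_one d)
  have e1 := h (i := 1) (j := 0) (by decide)
  have e2 := h (i := 2) (j := 0) (by decide)
  have e3 := h (i := 2) (j := 1) (by decide)
  convert mul_mem (mul_mem (mul_mem (mul_mem (h2 0 2 (by decide) (Units.mk0 _ a))
    (h2 1 2 (by decide) (Units.mk0 _ b))) (h1 1 2 (by decide) (m.1.1 1 2 / m.1.1 1 1)))
    (h1 0 2 (by decide) (m.1.1 0 2 / m.1.1 0 0))) (h1 0 1 (by decide) (m.1.1 0 1 / m.1.1 0 0))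
  refine Subtype.ext (Units.ext ?_)
  show _ = (hd _ _).1.1 * (hd _ _).1.1 * (tv _ _).1.1 * (tv _ _).1.1 * (tv _ _).1.1
  rw [hd_val, hd_val, tv_val, tv_val, tv_val]
  ext i j
  fin_cases i <;> fin_cases j <;>
    simp [mul_apply, Fin.sum_univ_three, one_apply, single_apply, diagonal_apply, e1, e2, e3]
  · field_simp
  · field_simp
  · field_simp
  · field_simp
    rw [← d]
    ring

/-- the representatives of the reflections -/
def om {a b : Fin n} (h : a ≠ b) : SA K n := tv h 1 * tv h.symm (-1) * tv h 1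

theorem om_val {a b : Fin n} (h : a ≠ b) :
    (om (K := K) h).1 = mono (Equiv.swap a b) fun i => if i = a then -1 else 1 := Units.ext (by
  show (1 + single a b 1) * (1 + single b a (-1)) * (1 + single a b 1) = _
  have h' := h.symm
  simp only [Matrix.mul_add, Matrix.add_mul, Matrix.mul_one, Matrix.one_mul, single_mul_single_same,
    single_mul_single_of_ne _ _ _ _ h, single_mul_single_of_ne _ _ _ _ h']
  ext i j
  simp only [mono_val, Matrix.add_apply, one_apply, single_apply, Equiv.swap_apply_def,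
    Matrix.zero_apply]
  simp only [apply_ite Units.val, Units.val_neg, Units.val_one]
  grind)

end

end Vale.Agent.P011UHR
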