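import Vale.Agent.P011UHB.Spec
import Vale.Agent.P011UQ.Tz
import Vale.Agent.P011UP.Par

/-!
Rational elements and frames.
-/

set_option autoImplicit false
set_option linter.all false

namespace Vale.Agent.P011UHR

open Matrix Vale.Agent.P011L Vale.Agent.P183CH Vale.Agent.P011U Vale.Agent.P011UHB
open Vale.Agent.P011UC (pa)

section

variable {R : RS} {K G : Type} [Field K] [Group G] {Γ : RG R K G} (hΓ : Γ.Ok) (hR : R.Ok)
  {ψ : G →* G} {σ : K →+* K} {c : Fin R.r → Kˣ} {π : Equiv.Perm (Fin R.r)} {g n : G} {w : R.Aut}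
include hΓ hR

theorem one_X (h : Std Γ ψ σ 1 c 1) {S : Set R.Q} {v : G} (hv : v ∈ Γ.X S) : ψ v ∈ Γ.X S := by
  simpa using P011UP.std_X hΓ h hR (fun γ a _ => a) hv

omit hR in
theorem one_T (h : Std Γ ψ σ 1 c 1) {v : G} (hv : v ∈ Γ.T) : ψ v ∈ Γ.T := by
  simpa using P011UP.std_T hΓ h hv

omit hR in
theorem one_rep (h : Std Γ ψ σ 1 c 1) (hn : Γ.Rep n w) : Γ.Rep (ψ n) w :=
  hn.ind (P := fun n w => Γ.Rep (ψ n) w)
    (fun i => by simpa [P011UP.std_n hΓ h] using (RG.rep_n i).T_mul (RG.h_mem _ _))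
    (fun t ht => RG.rep_T (one_T hΓ h ht)) (fun n w n' w' _ _ a b => map_mul ψ n n' ▸ a.mul b)
    fun n w _ a => map_inv ψ n ▸ a.inv

omit hR in
theorem one_nd (h : Std Γ ψ σ 1 1 1) (l : List (Fin R.r)) : ψ (Γ.nd l) = Γ.nd l := by
  induction l with
  | nil => exact map_one ψ
  | cons i l ih => simp [RG.nd_cons, P011UP.std_n hΓ h, ih]

theorem rat0 (g : G) : ∃ t ∈ Γ.T, ∀ (ψ : G →* G) (σ : K →+* K), Std Γ ψ σ 1 1 1 →
    g⁻¹ * ψ g ∈ Γ.T → ψ (g * t⁻¹) = g * t⁻¹ := by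
  obtain ⟨u, hu, n, w, hn, v, hv, rfl⟩ := hΓ.bruhat hR g
  obtain ⟨t, ht, l, rfl, rfl⟩ := hΓ.exists_nd hR hn
  have h1 := hΓ.nm_N_T hR _ (inv_mem (RG.rep_nd l).mem_N) t ht
  refine ⟨_, h1, fun ψ σ h e => ?_⟩
  obtain ⟨-, e2, -⟩ := hΓ.bruhat_unique hR (one_rep hΓ h hn) (hn.mul_T e) (one_X hΓ hR h hu) hu
    (one_X hΓ hR h hv) (hΓ.nm_T_X _ _ (inv_mem e) v hv) (by rw [← map_mul, ← map_mul]; group)
  rw [map_mul, one_nd hΓ h] at e2
  have e3 : ψ (u * (t * Γ.nd l) * v) = u * (t * Γ.nd l) * v * ((t * Γ.nd l)⁻¹ * (ψ t * Γ.nd l)) := by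
    rw [e2]
    group
  rw [map_mul, e3]
  simp only [map_mul, map_inv, one_nd hΓ h]
  group

theorem nm_R (J : Set (Fin R.r)) : P183A.Nm (Γ.GJ J) (Γ.X {γ | 0 ≤ γ ∧ ¬R.In J γ}) := by
  obtain ⟨m, hm, -⟩ := P011UP.exists_dom hR J
  have : Γ.X {γ | 0 ≤ γ ∧ ¬R.In J γ} = P011UP.RJ Γ m 1 :=
    le_antisymm (RG.X_mono fun γ a b => ⟨⟨b, a.1⟩, not_le.1 fun e => a.2 (hm.In a.1 e)⟩)
      (RG.X_mono fun γ a _ => ⟨a.1.2, fun e => by have := a.2; rw [hm.zero e] at this; omega⟩)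
  exact this ▸ P011UP.nm_GJ hΓ hR hm one_pos

end

variable {k K : Type} [Field k] [Field K] [Algebra k K] {S : Set K} {σ τ : K ≃ₐ[k] K}
  {L F : IntermediateField k K}

theorem fx_mul (h : Fx S σ) (h' : Fx S τ) : Fx S (σ * τ) := fun x hx =>
  (congrArg σ (h' x hx)).trans (h x hx)

theorem fx_inv (h : Fx S σ) : Fx S σ⁻¹ := fun x hx =>
  σ.injective ((σ.apply_symm_apply x).trans (h x hx).symm)

theorem fx_pow (h : Fx S σ) (m : ℕ) : Fx S (σ ^ m) := by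
  induction m with
  | zero => exact fun _ _ => rfl
  | succ m ih => exact pow_succ σ m ▸ fx_mul ih h

theorem map_L [Normal k L] (θ : K ≃ₐ[k] K) {x : K} (hx : x ∈ L) : θ x ∈ L :=
  (congrArg (· ∈ L) (θ.restrictNormal_commutes L ⟨x, hx⟩)).mp (θ.restrictNormal L ⟨x, hx⟩).2

theorem fx_conj {θ : K ≃ₐ[k] K} (hθ : ∀ x ∈ S, θ x ∈ S) (h : Fx S σ) : Fx S (θ⁻¹ * σ * θ) :=
  fun x hx => (congrArg θ.symm (h _ (hθ x hx))).trans (θ.symm_apply_apply x)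

theorem fx_sup (h : Fx (L : Set K) σ) (h' : Fx (F : Set K) σ) :
    Fx ((L ⊔ F : IntermediateField k K) : Set K) σ := by
  have : σ ∈ (L ⊔ F).fixingSubgroup := by
    rw [IntermediateField.fixingSubgroup_sup]
    exact ⟨(IntermediateField.mem_fixingSubgroup_iff _ _).2 h,
      (IntermediateField.mem_fixingSubgroup_iff _ _).2 h'⟩
  exact (IntermediateField.mem_fixingSubgroup_iff _ _).1 this

theorem mem_L [IsGalois k K] {u : K} (h : ∀ σ : K ≃ₐ[k] K, Fx (L : Set K) σ → σ u = u) : u ∈ L :=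
  InfiniteGalois.fixedField_fixingSubgroup L ▸ fun σ =>
    h σ.1 ((IntermediateField.mem_fixingSubgroup_iff _ _).1 σ.2)

theorem fx_card [IsGalois k L] {l : ℕ} (hl : 0 < l) (h : Module.finrank k L = l) (θ : K ≃ₐ[k] K) :
    Fx (L : Set K) (θ ^ l) := fun x hx => by
  haveI : FiniteDimensional k L := Module.finite_of_finrank_pos (h ▸ hl)
  have e : AlgEquiv.restrictNormalHom L (θ ^ l) = 1 := by
    rw [map_pow, ← h, ← IsGalois.card_aut_eq_finrank, pow_card_eq_one']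
  exact ((θ ^ l).restrictNormal_commutes L ⟨x, hx⟩).symm.trans
    (congrArg (fun f : L ≃ₐ[k] L => (f ⟨x, hx⟩).1) e)

variable {D : Chev}

variable (D) in
/-- the standard action -/
noncomputable abbrev fs (σ : K ≃ₐ[k] K) : D.grp K →* D.grp K := fm D (σ : K →+* K)

theorem std_fs (σ : K ≃ₐ[k] K) : Std (GG D K) (fs D σ) (σ : K →+* K) 1 1 1 :=
  ⟨fun _ _ => rfl, fun i u => by simp [fm_x]⟩

variable (k D S) in
/-- the rational points -/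
def RL : Subgroup (D.grp K) where
  carrier := {g | ∀ σ : K ≃ₐ[k] K, Fx S σ → fs D σ g = g}
  mul_mem' a b σ h := by rw [map_mul, a σ h, b σ h]
  one_mem' σ _ := map_one _
  inv_mem' a σ h := by rw [map_inv, a σ h]

theorem x_RL {γ : D.R.Q} {u : K} (h : u ∈ S) : (GG D K).x γ u ∈ RL k S D := fun σ e =>
  (fm_x _ _ _).trans (congrArg _ (e u h))

theorem of_x_RL [IsGalois k K] {γ : D.R.Q} (hγ : γ ∈ D.R.Φ) {u : K}
    (h : (GG D K).x γ u ∈ RL k L D) : u ∈ L := mem_L fun σ e =>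
  GG_ok.x_inj (Chev.R_ok D) hγ ((fm_x _ _ _).symm.trans (h σ e))

variable (L) in
/-- maps which normalise the standard action -/
def Good (ψ : D.grp K →* D.grp K) (ν : K →+* K) : Prop :=
  ∀ σ : K ≃ₐ[k] K, Fx (L : Set K) σ → ∃ σ' : K ≃ₐ[k] K, Fx (L : Set K) σ' ∧
    (∀ u, σ (ν u) = ν (σ' u)) ∧ ∀ x, fs D σ (ψ x) = ψ (fs D σ' x)

variable {ψ Φ : D.grp K →* D.grp K} {ν Fr : K →+* K} {g n y : D.grp K} {c : Fin D.R.r → Kˣ}
  {π : Equiv.Perm (Fin D.R.r)} {a : D.R.Aut}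

theorem Good.mem (h : Good L ψ ν) (hy : y ∈ RL k L D) : ψ y ∈ RL k L D := fun σ e => by
  obtain ⟨σ', a, -, b⟩ := h σ e
  rw [b, hy σ' a]

/-- conjugation after a homomorphism -/
def cj (g : D.grp K) (ψ : D.grp K →* D.grp K) : D.grp K →* D.grp K :=
  (MulAut.conj g).toMonoidHom.comp ψ

theorem cj_apply (x : D.grp K) : cj g ψ x = g * ψ x * g⁻¹ := rfl

theorem Good.cj (h : Good L ψ ν) (hg : g ∈ RL k L D) : Good L (cj g ψ) ν := fun σ e => by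
  obtain ⟨σ', a, b, d⟩ := h σ e
  exact ⟨σ', a, b, fun x => by rw [cj_apply, cj_apply, map_mul, map_mul, map_inv, hg σ e, d]⟩

theorem std_cj (h : Std (GG D K) ψ ν g c π) (n : D.grp K) :
    Std (GG D K) (cj (n * g⁻¹) ψ) ν n c π :=
  ⟨h.1, fun i u => by rw [cj_apply, cj_apply, (h.2 i u).1, (h.2 i u).2]; constructor <;> group⟩

theorem Good.std (h : Good L ψ ν) (hs : Std (GG D K) ψ ν g c π) : ∃ t ∈ (GG D K).T, ∃ c',
    g * t ∈ RL k L D ∧ Std (GG D K) ψ ν (g * t) c' π := by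
  obtain ⟨t, ht, h1⟩ := rat0 GG_ok (Chev.R_ok D) g
  obtain ⟨s, hs'⟩ := GG_ok.exists_hT (inv_mem ht)
  refine ⟨_, inv_mem ht, _, fun σ e => h1 _ _ (std_fs σ) ?_,
    hs' ▸ P011UQ.std_mul GG_ok (Chev.R_ok D) hs s⟩
  obtain ⟨σ', -, b, d⟩ := h σ e
  have h2 := (std_fs σ).comp hs
  have h3 := hs.comp (std_fs σ')
  simp only [← d] at h3
  rw [show (fun x => ν ((σ' : K →+* K) x)) = fun x => (σ : K →+* K) (ν x) from
    funext fun x => (b x).symm, mul_one] at h3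
  rw [one_mul] at h2
  obtain ⟨-, s, e1, -⟩ := P011UQ.std_uniq GG_ok (Chev.R_ok D) h2 h3 (by simp)
  have := GG_ok.hT_mem s
  rw [← e1] at this
  simpa using this

variable (L) in
/-- the action on the root subgroups -/
def Act (ψ : D.grp K →* D.grp K) (ν : K →+* K) (w : D.R.Aut) : Prop :=
  ∀ γ ∈ D.R.Φ, ∃ d : Kˣ, (d : K) ∈ L ∧ ∀ u, ψ ((GG D K).x γ u) = (GG D K).x (w γ) (d * ν u) ∧
    ψ ((GG D K).x (-γ) u) = (GG D K).x (-w γ) ((d⁻¹ : Kˣ) * ν u)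

theorem Good.act [IsGalois k K] (h : Good L ψ ν) (hs : Std (GG D K) ψ ν n c π)
    (hn : (GG D K).Rep n a) : Act L ψ ν (a * pa D.R π) := fun γ hγ => by
  have hR := Chev.R_ok D
  obtain ⟨d, hd⟩ := P011UP.std_x GG_ok hs hR γ hγ
  have m := P011UP.pm_mem hR hs.1 γ hγ
  obtain ⟨e, he⟩ := GG_ok.rep_conj hR hn m
  have b : ∀ u, ψ ((GG D K).x γ u) = (GG D K).x ((a * pa D.R π) γ) ((e * d : Kˣ) * ν u) := fun u => by
    rw [(hd u).1, (he _).1, Units.val_mul, mul_assoc]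
    rfl
  refine ⟨e * d, ?_, fun u => ⟨b u, ?_⟩⟩
  · have := h.mem (x_RL (γ := γ) L.one_mem)
    rw [b, map_one, mul_one] at this
    exact of_x_RL (hR.map_mem hn.mem_W m) this
  · rw [(hd u).2, (he _).2, mul_inv, Units.val_mul, mul_assoc]
    rfl

variable (L D) in
/-- products of rational root elements -/
def ZL (J : Set (Fin D.R.r)) : Submonoid (D.grp K) :=
  Submonoid.closure {g | ∃ γ ∈ D.R.Φ, D.R.In J γ ∧ ∃ u ∈ L, g = (GG D K).x γ u}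

theorem fs_P (σ : K ≃ₐ[k] K) (l : List D.R.Q) (c : D.R.Q → K) :
    fs D σ ((GG D K).P l c) = (GG D K).P l fun γ => σ (c γ) := by
  induction l with
  | nil => exact map_one _
  | cons γ l ih => rw [RG.P_cons, RG.P_cons, map_mul, ih, fm_x]; rfl

theorem Good.dec [IsGalois k K] (h : Good L ψ ν) (hs : Std (GG D K) ψ ν g c π)
    (hg : g ∈ RL k L D) (hy : y ∈ RL k L D) (hc : Cell (GG D K) (y⁻¹ * ψ y * g) a)
    {J J' : Set (Fin D.R.r)} (hJ : ∀ γ, D.R.In J' γ → D.R.In J (a γ)) :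
    ∃ y₁ ∈ RL k L D, ∃ n ∈ RL k L D, (GG D K).Rep n a ∧ ∃ z ∈ ZL L D J,
      ∃ r ∈ (GG D K).X {γ | 0 ≤ γ ∧ ¬D.R.In J' γ}, y₁⁻¹ * ψ y₁ * g = z * n * r := by
  have hR := Chev.R_ok D
  have hΓ := GG_ok (D := D) (k := K)
  have g1 := mul_mem (mul_mem (inv_mem hy) (h.mem hy)) hg
  obtain ⟨u, hu, n, w, hn, v, hv, e⟩ := hΓ.bruhat hR (y⁻¹ * ψ y * g)
  have hv' := RG.X_le_U (RS.cl_Inv w).1 hv
  obtain ⟨b, hb, n', b', hb', hn', e'⟩ := hc
  obtain rfl : w = a := hΓ.cell_eq' hR hn' hn (mul_mem (inv_mem (RG.U_le_Bo hu)) hb)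
    (mul_mem hb' (inv_mem (RG.U_le_Bo hv'))) (by
      rw [show u⁻¹ * b * n' * (b' * v⁻¹) = u⁻¹ * (b * n' * b') * v⁻¹ by group, ← e', e]; group)
  have r1 : ∀ σ : K ≃ₐ[k] K, Fx (L : Set K) σ → fs D σ u = u ∧ fs D σ n = n ∧ fs D σ v = v :=
    fun σ f => hΓ.bruhat_unique hR (one_rep hΓ (std_fs σ) hn) hn (one_X hΓ hR (std_fs σ) hu) hu
      (one_X hΓ hR (std_fs σ) hv) hv (by rw [← map_mul, ← map_mul, ← e, g1 σ f])
  have u1 : u ∈ RL k L D := fun σ f => (r1 σ f).1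
  have n1 : n ∈ RL k L D := fun σ f => (r1 σ f).2.1
  have v1 : v ∈ RL k L D := fun σ f => (r1 σ f).2.2
  have u2 : v * (g⁻¹ * ψ u * g) ∈ (GG D K).X D.R.Pos := RG.U_eq (Γ := GG D K) ▸ mul_mem hv'
    (P011UP.std_X hΓ hs hR (fun γ a _ => P011UP.pm_nonneg a) hu)
  have u3 := mul_mem v1 (mul_mem (mul_mem (inv_mem hg) (h.mem u1)) hg)
  obtain ⟨l₁, a1, a2⟩ := RS.exists_list (RS.cl_PJ (R := D.R) J').1
  obtain ⟨l₂, b1, b2⟩ := RS.exists_list (R := D.R) (S := {γ | γ ∈ D.R.Pos ∧ ¬D.R.In J' γ})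
    fun _ a => a.1
  have c1 : (l₁ ++ l₂).Nodup := a1.append b1 fun γ a b => ((b2 γ).1 b).2 ((a2 γ).1 a).2.2
  have c2 : ∀ γ, γ ∈ l₁ ++ l₂ ↔ γ ∈ D.R.Pos := fun γ => by
    rw [List.mem_append, a2, b2]
    exact ⟨fun a => a.elim (fun a => ⟨a.1, a.2.1⟩) (·.1), fun a =>
      (em (D.R.In J' γ)).imp (fun b => ⟨a.1, a.2, b⟩) fun b => ⟨a, b⟩⟩
  obtain ⟨d, hd⟩ := hΓ.exists_P hR RS.cl_Pos c1 c2 u2
  have d1 : ∀ γ ∈ l₁, d γ ∈ L := fun γ a => mem_L fun σ f =>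
    hΓ.P_inj hR c1 (fun γ => (c2 γ).1) ((fs_P σ _ d).symm.trans (hd ▸ u3 σ f)) γ
      (List.mem_append_left _ a)
  refine ⟨y * u, mul_mem hy u1, n, n1, hn, n * (GG D K).P l₁ d * n⁻¹, ?_, (GG D K).P l₂ d,
    RG.P_mem (fun γ a => ⟨((b2 γ).1 a).1.1, fun _ => ⟨((b2 γ).1 a).1.2, ((b2 γ).1 a).2⟩⟩) hΓ, ?_⟩
  · have : ∀ l : List D.R.Q, (∀ γ ∈ l, γ ∈ l₁) → n * (GG D K).P l d * n⁻¹ ∈ ZL L D J := fun l => by
      induction l with
      | nil => exact fun _ => by simpa [RG.P_nil] using one_mem _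
      | cons γ l ih =>
        intro a
        have m := (a2 γ).1 (a γ (by simp))
        obtain ⟨t, ht⟩ := hΓ.rep_conj hR hn m.1
        have m' := hR.map_mem hn.mem_W m.1
        rw [RG.P_cons, show ∀ p q : D.grp K, n * (p * q) * n⁻¹ = n * p * n⁻¹ * (n * q * n⁻¹) from
          fun _ _ => by group]
        exact mul_mem (Submonoid.subset_closure ⟨_, m', hJ γ m.2.2, _, of_x_RL m' ((ht _).1 ▸
          mul_mem (mul_mem n1 (x_RL (d1 γ (a γ (by simp))))) (inv_mem n1)), (ht _).1⟩)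
          (ih fun δ b => a δ (by simp [b]))
    exact this l₁ fun _ a => a
  · rw [inv_mul_cancel_right, mul_assoc n, ← RG.P_append, ← hd, map_mul,
      show (y * u)⁻¹ * (ψ y * ψ u) * g = u⁻¹ * (y⁻¹ * ψ y * g) * (g⁻¹ * ψ u * g) by group, e]
    group

theorem twist {g' z r : D.grp K} {c' : Fin D.R.r → Kˣ} (hs : Std (GG D K) ψ ν g c π)
    (hs' : Std (GG D K) Φ Fr g' c' 1) (h1 : ∀ x, Φ (ψ x) = ψ (Φ x)) (h2 : ∀ u, Fr (ν u) = ν (Fr u))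
    (hn : (GG D K).Rep n a) {P : Set D.R.Q} (hr : r ∈ (GG D K).X P)
    (e : y⁻¹ * ψ y * g = z * n * r) :
    (GG D K).Rep (g'⁻¹ * Φ (n * g⁻¹) * ψ g' * g) a ∧ ∃ r' ∈ (GG D K).X P,
      (Φ y * g')⁻¹ * ψ (Φ y * g') * g =
        cj (1 * g'⁻¹) Φ z * (g'⁻¹ * Φ (n * g⁻¹) * ψ g' * g) * r' := by
  have hR := Chev.R_ok D
  have hΓ := GG_ok (D := D) (k := K)
  have h3 := hs'.comp hs
  have h4 := hs.comp hs'
  simp only [← h1, ← h2] at h4
  rw [one_mul] at h3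
  rw [mul_one] at h4
  obtain ⟨-, s, e1, -⟩ := P011UQ.std_uniq hΓ hR h3 h4 (by simp)
  have ht := e1 ▸ hΓ.hT_mem s
  have h5 := std_cj hs' 1
  refine ⟨?_, _, hΓ.nm_T_X _ _ ht _ (one_X hΓ hR h5 hr), ?_⟩
  · convert (one_rep hΓ h5 hn).mul_T (inv_mem ht) using 1
    simp only [cj_apply, map_mul, map_inv]
    group
  · have e2 : Φ z = (Φ y)⁻¹ * ψ (Φ y) * Φ g * (Φ r)⁻¹ * (Φ n)⁻¹ := by
      rw [← h1, ← map_inv, ← map_mul, ← map_mul, e, map_mul, map_mul]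
      group
    simp only [cj_apply, map_mul, map_inv, e2]
    group

end Vale.Agent.P011UHR
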